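import Mathlib
import Vale.Agent.P343.Defs
import Vale.Agent.P343.Final

open Vale.Agent.P343

/-- The Sakoda-Sipser conjecture: no polynomial bounds the cost of converting 2NFAs, or even
1NFAs, into 2DFAs; in fact the cost is exponential. -/
theorem Vale.Agent.Results.P343.SakodaSipser.result :
    (¬ ∃ p : Polynomial ℝ, ∀ (α Q : Type) [Fintype α] [Fintype Q] (A : TwoNFA α Q),
      ∃ (Q' : Type) (_ : Fintype Q') (B : TwoNFA α Q'),
        (Fintype.card Q' : ℝ) ≤ p.eval (Fintype.card Q : ℝ) ∧ B.IsDet ∧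
          B.language = A.language) ∧
    (¬ ∃ p : Polynomial ℝ, ∀ (α Q : Type) [Fintype α] [Fintype Q] (A : TwoNFA α Q),
      A.IsOneWay → ∃ (Q' : Type) (_ : Fintype Q') (B : TwoNFA α Q'),
        (Fintype.card Q' : ℝ) ≤ p.eval (Fintype.card Q : ℝ) ∧ B.IsDet ∧
          B.language = A.language) ∧
    (∀ h : ℕ, 2 ≤ h → ∃ (α Q : Type) (_ : Fintype α) (_ : Fintype Q) (A : TwoNFA α Q),
      Fintype.card Q = h + 2 ∧ A.IsOneWay ∧
      ∀ (Q' : Type) [Fintype Q'] (B : TwoNFA α Q'), B.IsDet → B.language = A.language →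
        2 ^ ((h - 2) / 15) ≤ 2 * (Fintype.card Q' + 1)) :=
  ⟨fun ⟨p, hp⟩ => no_poly_oneWay ⟨p, fun α Q _ _ A _ => hp α Q A⟩, no_poly_oneWay,
    explicit_bound⟩
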